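import Vale.Agent.Lib.P307.EmptyVocab

namespace Vale.Agent.Results.P307.EmptyVocabulary

open Vale.Agent.Lib.P307

universe u

/-- Eventual categoricity for abstract elementary classes in the empty vocabulary, with
threshold the successor of `lam`: if `LS(K) ≤ lam` and `K` is categorical in some cardinal
`κ ≥ lam⁺`, then `K` is categorical in every cardinal `κ' ≥ lam⁺`. -/
theorem result (K : AEC.{u} FirstOrder.Language.empty) (lam κ κ' : Cardinal.{u})
    (hLS : K.LS ≤ lam) (hκ : Order.succ lam ≤ κ) (hκ' : Order.succ lam ≤ κ')
    (hcat : K.Categorical κ) : K.Categorical κ' :=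
  eventual_categoricity_empty K lam hLS κ κ' hκ hκ' hcat

end Vale.Agent.Results.P307.EmptyVocabulary
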