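import Vale.Agent.Lib.P307.UnaryMain

namespace Vale.Agent.Results.P307.UnaryVocabulary

open Vale.Agent.Lib.P307

universe u v w

/-- Eventual categoricity for abstract elementary classes in a vocabulary that has no
function or constant symbols and only unary relation symbols, with threshold `(2 ^ lam)⁺`:
if `LS(K) ≤ lam` and `K` is categorical in some cardinal `κ > 2 ^ lam`, then `K` is
categorical in every cardinal `κ' > 2 ^ lam`. -/
theorem result (L : FirstOrder.Language.{v, w}) (hF : ∀ n, IsEmpty (L.Functions n))
    (hR : ∀ n, n ≠ 1 → IsEmpty (L.Relations n)) (K : AEC.{u} L) (lam κ κ' : Cardinal.{u})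
    (hLS : K.LS ≤ lam) (hκ : 2 ^ lam < κ) (hκ' : 2 ^ lam < κ')
    (hcat : K.Categorical κ) : K.Categorical κ' :=
  haveI : L.IsRelational := hF
  K.eventual_categoricity_unary hR lam κ κ' hLS hκ hκ' hcat

end Vale.Agent.Results.P307.UnaryVocabulary
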